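import Vale.Agent.CT.BP3A24

/-! # Restriction of a block of cells to the corresponding subtable (piece G2) -/

namespace CT

open Finset
open scoped Classical

variable {J : Type} [Fintype J] [DecidableEq J]
variable {I : Type} [Fintype I] [DecidableEq I]

/-- the subtable -/
def g2_res (S : Finset I) (A : Finset J) (T : I → J → ℕ) :
    {x // x ∈ S} → {x // x ∈ A} → ℕ := fun s a => T s.1 a.1

/-- extension of a subtable by `T0` -/
def g2_ext (S : Finset I) (A : Finset J) (T0 : I → J → ℕ)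
    (U : {x // x ∈ S} → {x // x ∈ A} → ℕ) : I → J → ℕ :=
  fun i j => if h : i ∈ S ∧ j ∈ A then U ⟨i, h.1⟩ ⟨j, h.2⟩ else T0 i j

/-- row sums of the subtable -/
def g2_row (S : Finset I) (A : Finset J) (T0 : I → J → ℕ) : {x // x ∈ S} → ℕ :=
  fun s => ∑ a : {x // x ∈ A}, T0 s.1 a.1

/-- column sums of the subtable -/
def g2_col (S : Finset I) (A : Finset J) (T0 : I → J → ℕ) : {x // x ∈ A} → ℕ :=
  fun a => ∑ s : {x // x ∈ S}, T0 s.1 a.1

theorem g2_row_col (S : Finset I) (A : Finset J) (T0 : I → J → ℕ) :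
    ∑ i, g2_row S A T0 i = sz (g2_col S A T0) := by
  simp only [g2_row, g2_col, sz]
  rw [Finset.sum_comm]

theorem g2_ext_in (S : Finset I) (A : Finset J) (T0 : I → J → ℕ)
    (U : {x // x ∈ S} → {x // x ∈ A} → ℕ) {i : I} {j : J} (hi : i ∈ S) (hj : j ∈ A) :
    g2_ext S A T0 U i j = U ⟨i, hi⟩ ⟨j, hj⟩ := by
  simp only [g2_ext, hi, hj, and_self, dif_pos]

theorem g2_ext_off (S : Finset I) (A : Finset J) (T0 : I → J → ℕ)
    (U : {x // x ∈ S} → {x // x ∈ A} → ℕ) {i : I} {j : J} (h : ¬ (i ∈ S ∧ j ∈ A)) :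
    g2_ext S A T0 U i j = T0 i j := by
  simp only [g2_ext, h, dif_neg, not_false_eq_true]

theorem g2_ext_mem {r : I → ℕ} {c : J → ℕ} (S : Finset I) (A : Finset J) {T0 : I → J → ℕ}
    (hT0 : T0 ∈ TT r c) {U : {x // x ∈ S} → {x // x ∈ A} → ℕ}
    (hU : U ∈ TT (g2_row S A T0) (g2_col S A T0)) : g2_ext S A T0 U ∈ TT r c := by
  rw [p3_mem] at hU hT0 ⊢
  refine ⟨fun i => ?_, fun j => ?_⟩
  · by_cases h : i ∈ S
    · rw [p3_split A]
      have h1 : ∑ a : {x // x ∈ A}, g2_ext S A T0 U i a.1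
          = ∑ a : {x // x ∈ A}, T0 i a.1 := by
        have : ∀ a : {x // x ∈ A}, g2_ext S A T0 U i a.1 = U ⟨i, h⟩ a := by
          intro a
          rw [g2_ext_in S A T0 U h a.2]
        simp only [this]
        exact hU.1 ⟨i, h⟩
      have h2 : ∑ j ∈ univ.filter (fun j => j ∉ A), g2_ext S A T0 U i j
          = ∑ j ∈ univ.filter (fun j => j ∉ A), T0 i j := by
        refine Finset.sum_congr rfl fun j hj => ?_
        exact g2_ext_off S A T0 U (fun h' => (Finset.mem_filter.mp hj).2 h'.2)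
      rw [h1, h2, ← p3_split A (fun j => T0 i j)]
      exact hT0.1 i
    · rw [← hT0.1 i]
      refine Finset.sum_congr rfl fun j _ => ?_
      exact g2_ext_off S A T0 U (fun h' => h h'.1)
  · by_cases h : j ∈ A
    · rw [p3_split S]
      have h1 : ∑ s : {x // x ∈ S}, g2_ext S A T0 U s.1 j
          = ∑ s : {x // x ∈ S}, T0 s.1 j := by
        have : ∀ s : {x // x ∈ S}, g2_ext S A T0 U s.1 j = U s ⟨j, h⟩ := by
          intro s
          rw [g2_ext_in S A T0 U s.2 h]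
        simp only [this]
        exact hU.2 ⟨j, h⟩
      have h2 : ∑ i ∈ univ.filter (fun i => i ∉ S), g2_ext S A T0 U i j
          = ∑ i ∈ univ.filter (fun i => i ∉ S), T0 i j := by
        refine Finset.sum_congr rfl fun i hi => ?_
        exact g2_ext_off S A T0 U (fun h' => (Finset.mem_filter.mp hi).2 h'.1)
      rw [h1, h2, ← p3_split S (fun i => T0 i j)]
      exact hT0.2 j
    · rw [← hT0.2 j]
      refine Finset.sum_congr rfl fun i _ => ?_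
      exact g2_ext_off S A T0 U (fun h' => h h'.2)

theorem g2_res_mem {r : I → ℕ} {c : J → ℕ} (S : Finset I) (A : Finset J) {T0 T : I → J → ℕ}
    (hT0 : T0 ∈ TT r c) (hT : T ∈ TT r c)
    (hag : ∀ i j, ¬ (i ∈ S ∧ j ∈ A) → T i j = T0 i j) :
    g2_res S A T ∈ TT (g2_row S A T0) (g2_col S A T0) := by
  rw [p3_mem] at hT hT0 ⊢
  refine ⟨fun s => ?_, fun a => ?_⟩
  · have h1 := hT.1 s.1
    have h2 := hT0.1 s.1
    rw [p3_split A] at h1 h2
    have h3 : ∑ j ∈ univ.filter (fun j => j ∉ A), T s.1 j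
        = ∑ j ∈ univ.filter (fun j => j ∉ A), T0 s.1 j := by
      refine Finset.sum_congr rfl fun j hj => ?_
      exact hag s.1 j (fun h' => (Finset.mem_filter.mp hj).2 h'.2)
    show ∑ a : {x // x ∈ A}, T s.1 a.1 = ∑ a : {x // x ∈ A}, T0 s.1 a.1
    omega
  · have h1 := hT.2 a.1
    have h2 := hT0.2 a.1
    rw [p3_split S] at h1 h2
    have h3 : ∑ i ∈ univ.filter (fun i => i ∉ S), T i a.1
        = ∑ i ∈ univ.filter (fun i => i ∉ S), T0 i a.1 := by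
      refine Finset.sum_congr rfl fun i hi => ?_
      exact hag i a.1 (fun h' => (Finset.mem_filter.mp hi).2 h'.1)
    show ∑ s : {x // x ∈ S}, T s.1 a.1 = ∑ s : {x // x ∈ S}, T0 s.1 a.1
    omega

theorem g2_ext_res (S : Finset I) (A : Finset J) {T0 T : I → J → ℕ}
    (hag : ∀ i j, ¬ (i ∈ S ∧ j ∈ A) → T i j = T0 i j) :
    g2_ext S A T0 (g2_res S A T) = T := by
  funext i j
  by_cases h : i ∈ S ∧ j ∈ A
  · rw [g2_ext_in S A T0 _ h.1 h.2]
    rfl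
  · rw [g2_ext_off S A T0 _ h, hag i j h]

theorem g2_res_ext (S : Finset I) (A : Finset J) (T0 : I → J → ℕ)
    (U : {x // x ∈ S} → {x // x ∈ A} → ℕ) :
    g2_res S A (g2_ext S A T0 U) = U := by
  funext s a
  show g2_ext S A T0 U s.1 a.1 = U s a
  rw [g2_ext_in S A T0 U s.2 a.2]

theorem g2_fib_sum {r : I → ℕ} {c : J → ℕ} (S : Finset I) (A : Finset J) (P : Finset I)
    (R : Finset {x // x ∈ S}) (hP : ∀ i, i ∈ P ↔ ∃ h : i ∈ S, (⟨i, h⟩ : {x // x ∈ S}) ∈ R)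
    {T0 T : I → J → ℕ}
    (hT0 : T0 ∈ TT r c) (hag : ∀ i j, ¬ (i ∈ S ∧ j ∈ A) → T i j = T0 i j)
    (g : (I → J → ℕ) → ℝ) :
    ∑ T' ∈ fib r c (P ×ˢ A) T, g T'
      = ∑ U ∈ fib (g2_row S A T0) (g2_col S A T0)
          (R ×ˢ (univ : Finset {x // x ∈ A})) (g2_res S A T), g (g2_ext S A T0 U) := by
  have hag' : ∀ T' ∈ fib r c (P ×ˢ A) T, ∀ i j, ¬ (i ∈ S ∧ j ∈ A) → T' i j = T0 i j := by
    intro T' hT' i j hij
    rw [fib, Finset.mem_filter] at hT'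
    rw [hT'.2 i j, hag i j hij]
    rw [Finset.mem_product]
    rintro ⟨h1, h2⟩
    obtain ⟨h3, _⟩ := (hP i).1 h1
    exact hij ⟨h3, h2⟩
  refine Finset.sum_nbij' (fun T' => g2_res S A T') (fun U => g2_ext S A T0 U) ?_ ?_ ?_ ?_ ?_
  · intro T' hT'
    have h0 := hag' T' hT'
    rw [fib, Finset.mem_filter] at hT' ⊢
    refine ⟨g2_res_mem S A hT0 hT'.1 h0, ?_⟩
    intro s a hsa
    have hs : s ∉ R := by
      intro h
      exact hsa (by rw [Finset.mem_product]; exact ⟨h, Finset.mem_univ _⟩)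
    refine hT'.2 s.1 a.1 ?_
    rw [Finset.mem_product]
    rintro ⟨h1, _⟩
    obtain ⟨_, h4⟩ := (hP s.1).1 h1
    exact hs h4
  · intro U hU
    rw [fib, Finset.mem_filter] at hU ⊢
    refine ⟨g2_ext_mem S A hT0 hU.1, ?_⟩
    intro i j hij
    by_cases h : i ∈ S ∧ j ∈ A
    · rw [g2_ext_in S A T0 U h.1 h.2]
      have h5 := hU.2 ⟨i, h.1⟩ ⟨j, h.2⟩ (by
        rw [Finset.mem_product]
        rintro ⟨h1, _⟩
        exact hij (by rw [Finset.mem_product]; exact ⟨(hP i).2 ⟨h.1, h1⟩, h.2⟩))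
      exact h5
    · rw [g2_ext_off S A T0 U h, hag i j h]
  · intro T' hT'
    exact g2_ext_res S A (hag' T' hT')
  · intro U _
    exact g2_res_ext S A T0 U
  · intro T' hT'
    rw [g2_ext_res S A (hag' T' hT')]

theorem g2_CE {r : I → ℕ} {c : J → ℕ} (S : Finset I) (A : Finset J) (P : Finset I)
    (R : Finset {x // x ∈ S}) (hP : ∀ i, i ∈ P ↔ ∃ h : i ∈ S, (⟨i, h⟩ : {x // x ∈ S}) ∈ R)
    {T0 T : I → J → ℕ}
    (hT0 : T0 ∈ TT r c) (hag : ∀ i j, ¬ (i ∈ S ∧ j ∈ A) → T i j = T0 i j)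
    (f : (I → J → ℕ) → ℝ) :
    CE r c (P ×ˢ A) f T
      = CE (g2_row S A T0) (g2_col S A T0)
          (R ×ˢ (univ : Finset {x // x ∈ A})) (fun U => f (g2_ext S A T0 U)) (g2_res S A T) := by
  have hc : ((fib r c (P ×ˢ A) T).card : ℝ)
      = ((fib (g2_row S A T0) (g2_col S A T0)
          (R ×ˢ (univ : Finset {x // x ∈ A})) (g2_res S A T)).card : ℝ) := by
    have h := g2_fib_sum S A P R hP hT0 hag (fun _ => 1)
    simpa using h
  rw [CE, CE, g2_fib_sum S A P R hP hT0 hag, hc]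

/-- the whole block -/
theorem g2_fib_univ {r : I → ℕ} {c : J → ℕ} (S : Finset I) (A : Finset J) {T0 : I → J → ℕ}
    (hT0 : T0 ∈ TT r c) (g : (I → J → ℕ) → ℝ) :
    ∑ T' ∈ fib r c (S ×ˢ A) T0, g T'
      = ∑ U ∈ TT (g2_row S A T0) (g2_col S A T0), g (g2_ext S A T0 U) := by
  rw [g2_fib_sum S A S (univ : Finset {x // x ∈ S})
    (fun i => ⟨fun h => ⟨h, Finset.mem_univ _⟩, fun h => h.1⟩) hT0 (fun _ _ _ => rfl)]
  refine Finset.sum_congr ?_ fun _ _ => rfl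
  rw [fib, Finset.filter_true_of_mem]
  intro U _ i j hij
  exact absurd (by rw [Finset.mem_product]; exact ⟨Finset.mem_univ _, Finset.mem_univ _⟩) hij

/-- one fibre -/
theorem g2_one {r : I → ℕ} {c : J → ℕ} (S : Finset I) (A : Finset J) (C : ℝ)
    (h : ∀ (r' : {x // x ∈ S} → ℕ) (c' : {x // x ∈ A} → ℕ), ∑ i, r' i = sz c' →
      ∀ g : ({x // x ∈ S} → {x // x ∈ A} → ℕ) → ℝ,
        ∑ T ∈ TT r' c', (g T - (∑ T' ∈ TT r' c', g T') / ((TT r' c').card : ℝ)) ^ 2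
          ≤ C * ∑ i, ∑ j, VV r' c' (({i, j} : Finset {x // x ∈ S}) ×ˢ
            (univ : Finset {x // x ∈ A})) g)
    {T0 : I → J → ℕ} (hT0 : T0 ∈ TT r c) (f : (I → J → ℕ) → ℝ) :
    ∑ T ∈ fib r c (S ×ˢ A) T0, (f T - CE r c (S ×ˢ A) f T) ^ 2
      ≤ C * ∑ i ∈ S, ∑ j ∈ S, ∑ T ∈ fib r c (S ×ˢ A) T0,
          (f T - CE r c (({i, j} : Finset I) ×ˢ A) f T) ^ 2 := by
  have h1 := h (g2_row S A T0) (g2_col S A T0) (g2_row_col S A T0)
    (fun U => f (g2_ext S A T0 U))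
  have hcard : ((TT (g2_row S A T0) (g2_col S A T0)).card : ℝ)
      = ((fib r c (S ×ˢ A) T0).card : ℝ) := by
    have := g2_fib_univ S A hT0 (fun _ => 1)
    simpa using this.symm
  rw [hcard, ← g2_fib_univ S A hT0 f,
    ← g2_fib_univ S A hT0 (fun T => (f T - (∑ T' ∈ fib r c (S ×ˢ A) T0, f T')
      / ((fib r c (S ×ˢ A) T0).card : ℝ)) ^ 2)] at h1
  have h2 : ∀ i j : {x // x ∈ S},
      VV (g2_row S A T0) (g2_col S A T0) (({i, j} : Finset {x // x ∈ S}) ×ˢ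
        (univ : Finset {x // x ∈ A})) (fun U => f (g2_ext S A T0 U))
      = ∑ T ∈ fib r c (S ×ˢ A) T0, (f T - CE r c (({i.1, j.1} : Finset I) ×ˢ A) f T) ^ 2 := by
    intro i j
    rw [g2_fib_univ S A hT0, VV]
    refine Finset.sum_congr rfl fun U _ => ?_
    rw [g2_CE S A {i.1, j.1} {i, j} ?_ hT0 (fun i' j' hij => g2_ext_off S A T0 U hij) f,
      g2_res_ext]
    intro i'
    simp only [Finset.mem_insert, Finset.mem_singleton]
    constructor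
    · rintro (h3 | h3)
      · exact ⟨h3 ▸ i.2, Or.inl (Subtype.ext h3)⟩
      · exact ⟨h3 ▸ j.2, Or.inr (Subtype.ext h3)⟩
    · rintro ⟨h3, h4 | h4⟩
      · exact Or.inl (congrArg Subtype.val h4)
      · exact Or.inr (congrArg Subtype.val h4)
  simp only [h2] at h1
  have h3 : ∀ T ∈ fib r c (S ×ˢ A) T0,
      (f T - CE r c (S ×ˢ A) f T) ^ 2 = (f T - (∑ T' ∈ fib r c (S ×ˢ A) T0, f T')
      / ((fib r c (S ×ˢ A) T0).card : ℝ)) ^ 2 := by
    intro T hT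
    rw [CE, p3_fib_eq _ hT]
  rw [Finset.sum_congr rfl h3]
  refine h1.trans (le_of_eq ?_)
  congr 1
  rw [← Finset.sum_coe_sort S (fun i => ∑ j ∈ S, ∑ T ∈ fib r c (S ×ˢ A) T0,
          (f T - CE r c (({i, j} : Finset I) ×ˢ A) f T) ^ 2)]
  refine Finset.sum_congr rfl fun i _ => ?_
  rw [← Finset.sum_coe_sort S (fun j => ∑ T ∈ fib r c (S ×ˢ A) T0,
          (f T - CE r c (({i.1, j} : Finset I) ×ˢ A) f T) ^ 2)]

theorem g2_rr (r : I → ℕ) (c : J → ℕ) (S : Finset I) (A : Finset J) (C : ℝ)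
    (h : ∀ (r' : {x // x ∈ S} → ℕ) (c' : {x // x ∈ A} → ℕ), ∑ i, r' i = sz c' →
      ∀ g : ({x // x ∈ S} → {x // x ∈ A} → ℕ) → ℝ,
        ∑ T ∈ TT r' c', (g T - (∑ T' ∈ TT r' c', g T') / ((TT r' c').card : ℝ)) ^ 2
          ≤ C * ∑ i, ∑ j, VV r' c' (({i, j} : Finset {x // x ∈ S}) ×ˢ
            (univ : Finset {x // x ∈ A})) g)
    (f : (I → J → ℕ) → ℝ) :
    VV r c (S ×ˢ A) f ≤ C * ∑ i ∈ S, ∑ j ∈ S, VV r c (({i, j} : Finset I) ×ˢ A) f := by
  rw [VV, ← p3_avg (S ×ˢ A) (fun T => (f T - CE r c (S ×ˢ A) f T) ^ 2)]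
  have h1 : ∑ T0 ∈ TT r c, (1 / ((fib r c (S ×ˢ A) T0).card : ℝ)) *
      ∑ T ∈ fib r c (S ×ˢ A) T0, (f T - CE r c (S ×ˢ A) f T) ^ 2
      ≤ ∑ T0 ∈ TT r c, (1 / ((fib r c (S ×ˢ A) T0).card : ℝ)) *
        (C * ∑ i ∈ S, ∑ j ∈ S, ∑ T ∈ fib r c (S ×ˢ A) T0,
          (f T - CE r c (({i, j} : Finset I) ×ˢ A) f T) ^ 2) := by
    refine Finset.sum_le_sum fun T0 hT0 => ?_
    exact mul_le_mul_of_nonneg_left (g2_one S A C h hT0 f) (by positivity)
  refine h1.trans (le_of_eq ?_)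
  have h2 : ∀ T0 ∈ TT r c, (1 / ((fib r c (S ×ˢ A) T0).card : ℝ)) *
        (C * ∑ i ∈ S, ∑ j ∈ S, ∑ T ∈ fib r c (S ×ˢ A) T0,
          (f T - CE r c (({i, j} : Finset I) ×ˢ A) f T) ^ 2)
      = C * ∑ i ∈ S, ∑ j ∈ S, (1 / ((fib r c (S ×ˢ A) T0).card : ℝ)) *
          ∑ T ∈ fib r c (S ×ˢ A) T0,
          (f T - CE r c (({i, j} : Finset I) ×ˢ A) f T) ^ 2 := by
    intro T0 _
    rw [mul_left_comm]
    congr 1
    simp only [Finset.mul_sum]
  rw [Finset.sum_congr rfl h2, ← Finset.mul_sum]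
  congr 1
  rw [Finset.sum_comm]
  refine Finset.sum_congr rfl fun i _ => ?_
  rw [Finset.sum_comm]
  refine Finset.sum_congr rfl fun j _ => ?_
  rw [VV, ← p3_avg (S ×ˢ A)
    (fun T => (f T - CE r c (({i, j} : Finset I) ×ˢ A) f T) ^ 2)]

end CT
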