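import Vale.Agent.CT.BCnt
import Vale.Agent.CT.BHdC

/-! # Hardy inequality for small `y_b`: assembly -/

namespace CT

open Finset
open scoped Classical

variable {J : Type} [Fintype J] [DecidableEq J]

/-- energy of moves out of column `b` -/
noncomputable def hdE (v : J → ℕ) (b : J) (g : (J → ℕ) → ℝ) (x : J → ℕ) : ℝ :=
  ∑ d ∈ univ.filter (fun d => d ≠ b ∧ x d < v d), (g x - g (x - e b + e d)) ^ 2

/-- the summand for the active row `w` and the state `x` -/
noncomputable def hdF (v : J → ℕ) (r2 : ℕ) (b : J) (Λ : ℝ) (g : (J → ℕ) → ℝ) (x w : J → ℕ) : ℝ :=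
  if 1 ≤ w b ∧ 2 * Fintype.card J * w b ≤ r2 then
    1 / ((w b : ℝ) + 1) * ((if x b = 0 then 2 * g x ^ 2 else 0)
      + (if 0 < x b then 2 * Λ * ((((v b - x b : ℕ) : ℝ) + 1) * hdE v b g x) else 0)) else 0

theorem hdE_nonneg (v : J → ℕ) (b : J) (g : (J → ℕ) → ℝ) (x : J → ℕ) : 0 ≤ hdE v b g x :=
  Finset.sum_nonneg fun _ _ => sq_nonneg _

theorem hd_lg_one (N : ℕ) : 1 ≤ lg N := by
  unfold lg
  have : 0 ≤ Real.log ((N : ℝ) + 1) := Real.log_nonneg (by
    have : (0 : ℝ) ≤ N := Nat.cast_nonneg _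
    linarith)
  linarith

theorem hd_claim1 (v : J → ℕ) (r1 r2 r : ℕ) (hv : sz v = r1 + r2 + r)
    (h21 : r2 ≤ r1) (b : J) (g : (J → ℕ) → ℝ) :
    ∑ x ∈ (box v r).filter (fun x => x b < v b ∧ 2 * Fintype.card J * (v b - x b) ≤ r2),
      N2 r2 (v - x) * g x ^ 2 / (((v - x) b : ℝ) + 1) ^ 2
    ≤ 3 * ∑ x ∈ box v r, ∑ w ∈ box (v - x) r1,
      (if (1 ≤ w b ∧ 2 * Fintype.card J * w b ≤ r2) ∧ x b = (v - w) b
        then 1 / ((w b : ℝ) + 1) * g x ^ 2 else 0) := by
  rw [Finset.sum_filter, Finset.mul_sum]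
  refine Finset.sum_le_sum fun x hx => ?_
  obtain ⟨hxv, hxr⟩ := mem_box.1 hx
  have hnn : ∀ w : J → ℕ, 0 ≤ (if (1 ≤ w b ∧ 2 * Fintype.card J * w b ≤ r2) ∧ x b = (v - w) b
        then 1 / ((w b : ℝ) + 1) * g x ^ 2 else 0) := by
    intro w
    split_ifs
    · positivity
    · exact le_rfl
  split_ifs with hc
  · have hy : sz (v - x) = r1 + r2 := by
      rw [sz_sub hxv]
      omega
    have hyb : (v - x) b = v b - x b := rfl
    have hcn := cnt1 (v - x) r1 r2 hy h21 b (by rw [hyb]; exact hc.2)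
    have hlev := hd_level (v - x) r1 r2 hy b ((v - x) b) le_rfl
    rw [Nat.sub_self] at hlev
    rw [← hlev] at hcn
    have hsub : ∑ w ∈ (box (v - x) r1).filter (fun w => w b = (v - x) b),
        1 / (((v - x) b : ℝ) + 1) * g x ^ 2
        ≤ ∑ w ∈ box (v - x) r1, (if (1 ≤ w b ∧ 2 * Fintype.card J * w b ≤ r2) ∧ x b = (v - w) b
        then 1 / ((w b : ℝ) + 1) * g x ^ 2 else 0) := by
      rw [Finset.sum_filter]
      refine Finset.sum_le_sum fun w hw => ?_
      split_ifs with h3 h4 h5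
      · rw [h3]
      · exfalso
        apply h4
        have hwb : w b = v b - x b := h3
        refine ⟨⟨by omega, by rw [hwb]; exact hc.2⟩, ?_⟩
        show x b = v b - w b
        omega
      · positivity
      · exact le_rfl
    rw [Finset.sum_const, nsmul_eq_mul] at hsub
    have hp : (0 : ℝ) < ((v - x) b : ℝ) + 1 := by positivity
    have h6 : N2 r2 (v - x) * g x ^ 2 / (((v - x) b : ℝ) + 1) ^ 2
        ≤ 3 * ((((box (v - x) r1).filter (fun w => w b = (v - x) b)).card : ℝ)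
          * (1 / (((v - x) b : ℝ) + 1) * g x ^ 2)) := by
      rw [div_le_iff₀ (by positivity)]
      calc N2 r2 (v - x) * g x ^ 2
          ≤ (3 * (((v - x) b : ℝ) + 1) *
            (((box (v - x) r1).filter (fun w => w b = (v - x) b)).card : ℝ)) * g x ^ 2 :=
            mul_le_mul_of_nonneg_right hcn (sq_nonneg _)
        _ = _ := by
            field_simp
    exact h6.trans (mul_le_mul_of_nonneg_left hsub (by norm_num))
  · exact mul_nonneg (by norm_num) (Finset.sum_nonneg fun w _ => hnn w)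

theorem hd_claim2 (v : J → ℕ) (r1 r2 r : ℕ) (hv : sz v = r1 + r2 + r) (hr : r ≤ r2) (b : J)
    (g : (J → ℕ) → ℝ) (w : J → ℕ) (hw : w ∈ box v r1) :
    ∑ x ∈ box (v - w) r, (if (1 ≤ w b ∧ 2 * Fintype.card J * w b ≤ r2) ∧ x b = (v - w) b
        then 1 / ((w b : ℝ) + 1) * g x ^ 2 else 0)
      ≤ ∑ x ∈ box (v - w) r, hdF v r2 b (lg (sz v)) g x w := by
  obtain ⟨hwv, hwr⟩ := mem_box.1 hw
  have hΛ0 : 0 ≤ lg (sz v) := le_trans zero_le_one (hd_lg_one _)
  by_cases hC : 1 ≤ w b ∧ 2 * Fintype.card J * w b ≤ r2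
  · have hS : sz (v - w) = r + r2 := by
      rw [sz_sub hwv]
      omega
    have hvb : v b ≤ sz v := Finset.single_le_sum (f := fun j => v j)
      (fun _ _ => Nat.zero_le _) (mem_univ b)
    have hwb : w b ≤ v b := hwv b
    have hSb : (v - w) b = v b - w b := rfl
    have hlam := hd_lam (w b) ((v - w) b) (sz v) hC.1 (by rw [hSb]; omega)
    have htel := hd_tele (v - w) r r2 hS hr b (w b) (lg (sz v)) hlam g
    have e1 : ∑ x ∈ box (v - w) r, (if (1 ≤ w b ∧ 2 * Fintype.card J * w b ≤ r2) ∧ x b = (v - w) b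
        then 1 / ((w b : ℝ) + 1) * g x ^ 2 else 0)
        = 1 / ((w b : ℝ) + 1) * ∑ x ∈ (box (v - w) r).filter (fun x => x b = (v - w) b),
          g x ^ 2 := by
      rw [Finset.mul_sum, Finset.sum_filter]
      refine Finset.sum_congr rfl fun x _ => ?_
      by_cases hx : x b = (v - w) b
      · rw [if_pos ⟨hC, hx⟩, if_pos hx]
      · rw [if_neg (fun h => hx h.2), if_neg hx]
    have e2 : ∑ x ∈ box (v - w) r, hdF v r2 b (lg (sz v)) g x w
        = 1 / ((w b : ℝ) + 1) * (2 * ∑ x ∈ (box (v - w) r).filter (fun x => x b = 0), g x ^ 2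
          + 2 * lg (sz v) * ∑ x ∈ (box (v - w) r).filter (fun x => 0 < x b),
            ((((v b - x b : ℕ) : ℝ) + 1) * hdE v b g x)) := by
      rw [Finset.sum_filter, Finset.sum_filter, Finset.mul_sum, Finset.mul_sum,
        ← Finset.sum_add_distrib, Finset.mul_sum]
      refine Finset.sum_congr rfl fun x _ => ?_
      unfold hdF
      rw [if_pos hC]
      congr 1
      rw [mul_ite, mul_ite, mul_zero, mul_zero]
    rw [e1, e2]
    apply mul_le_mul_of_nonneg_left _ (by positivity)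
    refine htel.trans ?_
    apply add_le_add le_rfl
    apply mul_le_mul_of_nonneg_left _ (by positivity)
    refine Finset.sum_le_sum fun x hx => ?_
    rw [Finset.mem_filter, mem_box] at hx
    have hxb : x b ≤ (v - w) b := hx.1.1 b
    rw [hSb] at hxb
    have e3 : ((w b : ℝ) + (((v - w) b - x b : ℕ) : ℝ) + 1) = (((v b - x b : ℕ) : ℝ) + 1) := by
      have : w b + ((v - w) b - x b) = v b - x b := by
        rw [hSb]
        omega
      rw [← this]
      push_cast
      ring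
    rw [e3]
    apply mul_le_mul_of_nonneg_left _ (by positivity)
    unfold hdE
    apply Finset.sum_le_sum_of_subset_of_nonneg
    · intro d hd
      rw [Finset.mem_filter] at hd ⊢
      refine ⟨hd.1, hd.2.1, ?_⟩
      have h3 : x d < v d - w d := hd.2.2
      omega
    · intro _ _ _
      exact sq_nonneg _
  · apply le_of_eq
    refine Finset.sum_congr rfl fun x _ => ?_
    unfold hdF
    rw [if_neg hC, if_neg (fun h => hC h.1)]

theorem hd_claim3 (v : J → ℕ) (r1 r2 r : ℕ) (hv : sz v = r1 + r2 + r) (h1 : 1 ≤ r1)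
    (h21 : r2 ≤ r1) (b : J) (g : (J → ℕ) → ℝ) (x : J → ℕ) (hx : x ∈ box v r) :
    ∑ w ∈ box (v - x) r1, hdF v r2 b (lg (sz v)) g x w
      ≤ 2 * (if x b = 0 ∧ x b < v b ∧ ∃ d, d ≠ b ∧ x d < v d then N2 r2 (v - x) * g x ^ 2 else 0)
        + 80 * (Fintype.card J : ℝ) * lg (sz v) ^ 2 *
          (if 0 < x b ∧ x b < v b then N2 r2 (v - x) * hdE v b g x else 0) := by
  obtain ⟨hxv, hxr⟩ := mem_box.1 hx
  have hΛ0 : 0 ≤ lg (sz v) := le_trans zero_le_one (hd_lg_one _)
  have hE0 := hdE_nonneg v b g x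
  have hy : sz (v - x) = r1 + r2 := by
    rw [sz_sub hxv]
    omega
  have hcJ : 1 ≤ Fintype.card J := Fintype.card_pos_iff.2 ⟨b⟩
  have hN0 : 0 ≤ N2 r2 (v - x) := by unfold N2; positivity
  have hyN : sz (v - x) ≤ sz v := sz_mono tsub_le_self
  have hT := hd_T (v - x) r1 r2 hy h21 (sz v) hyN b
  have e1 : ∑ w ∈ box (v - x) r1, hdF v r2 b (lg (sz v)) g x w
      = ((if x b = 0 then 2 * g x ^ 2 else 0)
      + (if 0 < x b then 2 * lg (sz v) * ((((v b - x b : ℕ) : ℝ) + 1) * hdE v b g x) else 0))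
      * ∑ w ∈ (box (v - x) r1).filter (fun w => 1 ≤ w b ∧ 2 * Fintype.card J * w b ≤ r2),
        1 / ((w b : ℝ) + 1) := by
    rw [Finset.sum_filter, Finset.mul_sum]
    refine Finset.sum_congr rfl fun w _ => ?_
    unfold hdF
    rw [mul_ite, mul_zero]
    congr 1
    ring
  rw [e1]
  set W := (box (v - x) r1).filter (fun w => 1 ≤ w b ∧ 2 * Fintype.card J * w b ≤ r2) with hW
  rcases W.eq_empty_or_nonempty with hemp | hne
  · rw [hemp, Finset.sum_empty, mul_zero]
    apply add_nonneg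
    · split_ifs
      · positivity
      · simp
    · split_ifs
      · positivity
      · simp
  · obtain ⟨w, hw⟩ := hne
    rw [hW, Finset.mem_filter, mem_box] at hw
    obtain ⟨⟨hwy, hwr⟩, hw1, hw2⟩ := hw
    have hwb : w b ≤ v b - x b := hwy b
    have hxb : x b < v b := by omega
    have hcardle : ∑ w ∈ W, 1 / ((w b : ℝ) + 1) ≤ N2 r2 (v - x) := by
      calc ∑ w ∈ W, 1 / ((w b : ℝ) + 1) ≤ ∑ w ∈ W, (1 : ℝ) := by
            refine Finset.sum_le_sum fun w _ => ?_
            rw [div_le_one (by positivity)]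
            have : (0 : ℝ) ≤ (w b : ℝ) := Nat.cast_nonneg _
            linarith
        _ = (W.card : ℝ) := by simp
        _ ≤ ((box (v - x) r1).card : ℝ) := by
            exact_mod_cast Finset.card_le_card (Finset.filter_subset _ _)
        _ = N2 r2 (v - x) := by
            rw [card_box_compl hy]
            rfl
    rcases Nat.eq_zero_or_pos (x b) with h0 | h0
    · -- killed part
      have hex : ∃ d, d ≠ b ∧ x d < v d := by
        have hlt : w b < r1 := by
          have : 2 * w b ≤ 2 * Fintype.card J * w b := by nlinarith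
          omega
        have hsz := hd_sz_update w b
        have hpos : 0 < sz (Function.update w b 0) := by omega
        by_contra hcon
        push Not at hcon
        have hz : sz (Function.update w b 0) = 0 := by
          unfold sz
          apply Finset.sum_eq_zero
          intro j _
          by_cases hj : j = b
          · subst hj
            simp
          · rw [Function.update_of_ne hj]
            have h3 := hcon j hj
            have h4 : w j ≤ v j - x j := hwy j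
            omega
        omega
      rw [if_pos h0, if_neg (by omega : ¬ 0 < x b), if_pos ⟨h0, hxb, hex⟩,
        if_neg (fun h => by omega)]
      have h5 := mul_le_mul_of_nonneg_left hcardle
        (by positivity : (0 : ℝ) ≤ 2 * g x ^ 2)
      calc (2 * g x ^ 2 + 0) * ∑ w ∈ W, 1 / ((w b : ℝ) + 1)
          = 2 * g x ^ 2 * ∑ w ∈ W, 1 / ((w b : ℝ) + 1) := by ring
        _ ≤ 2 * g x ^ 2 * N2 r2 (v - x) := h5
        _ = _ := by ring
    · rw [if_neg (by omega : ¬ x b = 0), if_pos h0, if_neg (fun h => by omega),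
        if_pos ⟨h0, hxb⟩]
      have hyb : (v - x) b = v b - x b := rfl
      rw [hyb] at hT
      have h5 := mul_le_mul_of_nonneg_left hT
        (by positivity : (0 : ℝ) ≤ 2 * lg (sz v) * hdE v b g x)
      calc (0 + 2 * lg (sz v) * ((((v b - x b : ℕ) : ℝ) + 1) * hdE v b g x))
            * ∑ w ∈ W, 1 / ((w b : ℝ) + 1)
          = 2 * lg (sz v) * hdE v b g x * ((((v b - x b : ℕ) : ℝ) + 1)
            * ∑ w ∈ W, 1 / ((w b : ℝ) + 1)) := by ring
        _ ≤ 2 * lg (sz v) * hdE v b g x *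
            (40 * (Fintype.card J : ℝ) * lg (sz v) * N2 r2 (v - x)) := h5
        _ = _ := by ring

theorem hardy_smallD (v : J → ℕ) (r1 r2 r : ℕ) (hv : sz v = r1 + r2 + r) (h1 : 1 ≤ r1)
    (h21 : r2 ≤ r1) (hr : r ≤ r2) (b : J) (g : (J → ℕ) → ℝ) :
    ∑ x ∈ (box v r).filter (fun x => x b < v b ∧ 2 * Fintype.card J * (v b - x b) ≤ r2),
      N2 r2 (v - x) * g x ^ 2 / (((v - x) b : ℝ) + 1) ^ 2
    ≤ 1000 * (Fintype.card J : ℝ) * lg (sz v) ^ 2 * (KL v r2 r b g + DL v r2 r b g) := by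
  have hcJ : (1 : ℝ) ≤ (Fintype.card J : ℝ) := by
    exact_mod_cast (Fintype.card_pos_iff.2 ⟨b⟩ : 0 < Fintype.card J)
  have hΛ1 := hd_lg_one (sz v)
  refine (hd_claim1 v r1 r2 r hv h21 b g).trans ?_
  rw [hd_swap v r1 r (fun x w => (if (1 ≤ w b ∧ 2 * Fintype.card J * w b ≤ r2)
      ∧ x b = (v - w) b then 1 / ((w b : ℝ) + 1) * g x ^ 2 else 0))]
  have h2 := Finset.sum_le_sum (fun w hw => hd_claim2 v r1 r2 r hv hr b g w hw)
  rw [← hd_swap v r1 r (fun x w => hdF v r2 b (lg (sz v)) g x w)] at h2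
  have h3 := Finset.sum_le_sum (fun x hx => hd_claim3 v r1 r2 r hv h1 h21 b g x hx)
  have h4 := h2.trans h3
  rw [Finset.sum_add_distrib, ← Finset.mul_sum, ← Finset.mul_sum, ← Finset.sum_filter,
    ← Finset.sum_filter] at h4
  have hKL : ∑ x ∈ (box v r).filter (fun x => x b = 0 ∧ x b < v b ∧ ∃ d, d ≠ b ∧ x d < v d),
      N2 r2 (v - x) * g x ^ 2 = KL v r2 r b g := rfl
  have hKL0 : 0 ≤ KL v r2 r b g := Finset.sum_nonneg fun x _ =>
    mul_nonneg (by unfold N2; positivity) (sq_nonneg _)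
  have hDL : ∑ x ∈ (box v r).filter (fun x => 0 < x b ∧ x b < v b),
      N2 r2 (v - x) * hdE v b g x ≤ DL v r2 r b g := by
    unfold DL
    have hsub : (box v r).filter (fun x => 0 < x b ∧ x b < v b)
        ⊆ (box v r).filter (fun x => x b < v b) := by
      intro x hx
      rw [Finset.mem_filter] at hx ⊢
      exact ⟨hx.1, hx.2.2⟩
    refine le_trans ?_ (Finset.sum_le_sum_of_subset_of_nonneg hsub fun x _ _ =>
      mul_nonneg (by unfold N2; positivity)
        (Finset.sum_nonneg fun _ _ => Finset.sum_nonneg fun _ _ => sq_nonneg _))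
    refine Finset.sum_le_sum fun x hx => ?_
    rw [Finset.mem_filter] at hx
    apply mul_le_mul_of_nonneg_left _ (by unfold N2; positivity)
    unfold hdE
    exact Finset.single_le_sum (f := fun a => ∑ d ∈ univ.filter (fun d => d ≠ b ∧ x d < v d),
      (g x - g (x - e a + e d)) ^ 2) (fun _ _ => Finset.sum_nonneg fun _ _ => sq_nonneg _)
      (mem_sp.2 hx.2.1)
  rw [hKL] at h4
  have hDL0 : 0 ≤ DL v r2 r b g := le_trans (Finset.sum_nonneg fun x _ =>
    mul_nonneg (by unfold N2; positivity) (hdE_nonneg v b g x)) hDL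
  have hsq : 1 ≤ lg (sz v) ^ 2 := one_le_pow₀ hΛ1
  have hnl : 1 ≤ (Fintype.card J : ℝ) * lg (sz v) ^ 2 := by nlinarith
  have h5 : 80 * (Fintype.card J : ℝ) * lg (sz v) ^ 2 *
      ∑ x ∈ (box v r).filter (fun x => 0 < x b ∧ x b < v b), N2 r2 (v - x) * hdE v b g x
      ≤ 80 * (Fintype.card J : ℝ) * lg (sz v) ^ 2 * DL v r2 r b g :=
    mul_le_mul_of_nonneg_left hDL (by positivity)
  have h6 : 6 * KL v r2 r b g ≤ 1000 * ((Fintype.card J : ℝ) * lg (sz v) ^ 2) * KL v r2 r b g := by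
    apply mul_le_mul_of_nonneg_right _ hKL0
    linarith
  have h7 : 240 * (Fintype.card J : ℝ) * lg (sz v) ^ 2 * DL v r2 r b g
      ≤ 1000 * ((Fintype.card J : ℝ) * lg (sz v) ^ 2) * DL v r2 r b g := by
    apply mul_le_mul_of_nonneg_right _ hDL0
    nlinarith
  nlinarith

end CT
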