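import Vale.Agent.CT.Rx

/-! # Counting lemma for three columns: shrinking the box costs an absolute factor -/

namespace CT

open Finset
open scoped Classical

variable {J : Type} [Fintype J] [DecidableEq J]

theorem cl3_z (hJ : Fintype.card J ≤ 3) (S u : J → ℕ) (r : ℕ)
    (h : ∀ j, ∀ y : ℕ, 12 * (y * sz S) ≤ (12 * r + sz S) * S j → y ≤ u j) (h36 : 36 ≤ sz S) :
    r ≤ sz u := by
  have hσ : 0 < 12 * sz S := by omega
  have h1 : ∀ j, (12 * r + sz S) * S j ≤ 12 * sz S * (u j + 1) := by
    intro j
    by_contra hc
    push Not at hc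
    have := h j (u j + 1) (by nlinarith)
    omega
  have h2 : ∑ j, (12 * r + sz S) * S j ≤ ∑ j, 12 * sz S * (u j + 1) :=
    Finset.sum_le_sum (fun j _ => h1 j)
  rw [← Finset.mul_sum, ← Finset.mul_sum, Finset.sum_add_distrib] at h2
  have h3 : ∑ j : J, (1 : ℕ) ≤ 3 := by simpa using hJ
  have h4 : (12 * r + sz S) * sz S ≤ 12 * sz S * (sz u + 3) := by
    refine le_trans h2 ?_
    apply Nat.mul_le_mul_left
    exact Nat.add_le_add_left h3 _
  have h5 : 12 * r + sz S ≤ 12 * (sz u + 3) := by
    have : sz S * (12 * r + sz S) ≤ sz S * (12 * (sz u + 3)) := by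
      calc sz S * (12 * r + sz S) = (12 * r + sz S) * sz S := by ring
        _ ≤ 12 * sz S * (sz u + 3) := h4
        _ = sz S * (12 * (sz u + 3)) := by ring
    exact Nat.le_of_mul_le_mul_left this (by omega)
  omega

/-- shift of one entry -/
def shf (z x : ℕ) : ℕ := if z ≤ x then z + (x - z) / 24 else z - (z - x) / 24

theorem shf_up (z x : ℕ) : 24 * shf z x ≤ 24 * z + x := by
  unfold shf; split <;> omega

theorem shf_lo (z x : ℕ) : 23 * z ≤ 24 * shf z x := by
  unfold shf; split <;> omega

theorem shf_inj {z x x' : ℕ} (h : shf z x = shf z x') (h2 : x % 48 = x' % 48) : x = x' := by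
  unfold shf at h
  split at h <;> split at h <;> omega

theorem cl3 (hJ : Fintype.card J ≤ 3) (S u : J → ℕ) (r : ℕ)
    (h : ∀ j, ∀ y : ℕ, 12 * (y * sz S) ≤ (12 * r + sz S) * S j → y ≤ u j) (h36 : 36 ≤ sz S)
    (hr2 : 12 * r ≤ 11 * sz S) : (box S r).card ≤ 10 ^ 8 * (box u r).card := by
  have hz := cl3_z hJ S u r h h36
  have hne : Nonempty J := by
    by_contra hc
    rw [not_nonempty_iff] at hc
    have : sz S = 0 := by simp [sz]
    omega
  obtain ⟨j0, -, hj0⟩ := Finset.exists_max_image (univ : Finset J) S univ_nonempty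
  have hj0' : ∀ j, S j ≤ S j0 := fun j => hj0 j (mem_univ j)
  have hSig : sz S ≤ 3 * S j0 := by
    unfold sz
    calc ∑ j, S j ≤ ∑ j : J, S j0 := Finset.sum_le_sum (fun j _ => hj0' j)
      _ = Fintype.card J * S j0 := by simp
      _ ≤ 3 * S j0 := Nat.mul_le_mul_right _ hJ
  by_cases hbig : 288 ≤ S j0
  · -- large case
    set z : J → ℕ := fun j => r * S j / sz S with hz'
    have hσ : 0 < sz S := by omega
    have z1 : ∀ j, z j * sz S ≤ r * S j := fun j => Nat.div_mul_le_self _ _
    have z2 : ∀ j, r * S j ≤ sz S * z j + sz S := by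
      intro j
      have := Nat.div_add_mod (r * S j) (sz S)
      have h3 := Nat.mod_lt (r * S j) hσ
      have h4 : sz S * z j = sz S * (r * S j / sz S) := rfl
      omega
    have hsz : ∀ f : J → ℕ, ∑ j, f j = f j0 + ∑ j ∈ univ.erase j0, f j := by
      intro f
      rw [Finset.add_sum_erase _ _ (mem_univ j0)]
    have hcard : ((univ : Finset J).erase j0).card ≤ 2 := by
      rw [Finset.card_erase_of_mem (mem_univ j0), Finset.card_univ]; omega
    set Y : (J → ℕ) → ℕ := fun x => ∑ j ∈ univ.erase j0, shf (z j) (x j) with hY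
    set φ : (J → ℕ) → (J → ℕ) := fun x j => if j = j0 then r - Y x else shf (z j) (x j) with hφ
    -- bounds on `Y`
    have hS' : ∑ j ∈ univ.erase j0, S j = sz S - S j0 := by
      have := hsz S
      unfold sz; omega
    have hSj : S j0 ≤ sz S := by
      have := hsz S
      unfold sz; omega
    have Yup : ∀ x ∈ box S r, Y x ≤ r := by
      intro x hx
      obtain ⟨hx1, hx2⟩ := mem_box.1 hx
      have e1 : 24 * Y x ≤ 24 * ∑ j ∈ univ.erase j0, z j + ∑ j ∈ univ.erase j0, x j := by
        rw [hY]
        simp only [Finset.mul_sum]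
        rw [← Finset.sum_add_distrib]
        exact Finset.sum_le_sum (fun j _ => shf_up _ _)
      have e2 : ∑ j ∈ univ.erase j0, x j ≤ r := by
        have := hsz x
        unfold sz at hx2; omega
      have e3 : (∑ j ∈ univ.erase j0, z j) * sz S ≤ r * (sz S - S j0) := by
        rw [← hS', Finset.sum_mul, Finset.mul_sum]
        exact Finset.sum_le_sum (fun j _ => z1 j)
      have e4 : 24 * Y x * sz S ≤ 24 * r * sz S := by
        calc 24 * Y x * sz S ≤ (24 * ∑ j ∈ univ.erase j0, z j + r) * sz S :=
              Nat.mul_le_mul_right _ (le_trans e1 (by omega))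
          _ = 24 * ((∑ j ∈ univ.erase j0, z j) * sz S) + r * sz S := by ring
          _ ≤ 24 * (r * (sz S - S j0)) + r * sz S := by omega
          _ = r * (24 * (sz S - S j0) + sz S) := by ring
          _ ≤ r * (24 * sz S) := Nat.mul_le_mul_left _ (by omega)
          _ = 24 * r * sz S := by ring
      have e5 := Nat.le_of_mul_le_mul_right e4 hσ
      omega
    have Ylo : ∀ x ∈ box S r, 12 * ((r - Y x) * sz S) ≤ (12 * r + sz S) * S j0 := by
      intro x hx
      have hup := Yup x hx
      have e1 : 23 * ∑ j ∈ univ.erase j0, z j ≤ 24 * Y x := by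
        rw [hY]
        simp only [Finset.mul_sum]
        exact Finset.sum_le_sum (fun j _ => shf_lo _ _)
      have e3 : r * (sz S - S j0) ≤ sz S * (∑ j ∈ univ.erase j0, z j) + 2 * sz S := by
        rw [← hS', Finset.mul_sum, Finset.mul_sum]
        calc ∑ j ∈ univ.erase j0, r * S j ≤ ∑ j ∈ univ.erase j0, (sz S * z j + sz S) :=
              Finset.sum_le_sum (fun j _ => z2 j)
          _ = ∑ j ∈ univ.erase j0, sz S * z j + ((univ : Finset J).erase j0).card * sz S := by
              rw [Finset.sum_add_distrib]; simp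
          _ ≤ _ := by
              have := Nat.mul_le_mul_right (sz S) hcard
              omega
      obtain ⟨q, hq⟩ : ∃ q, q = r - Y x := ⟨_, rfl⟩
      have hq' : q + Y x = r := by omega
      rw [← hq]
      obtain ⟨w, hw⟩ : ∃ w, w = sz S - S j0 := ⟨_, rfl⟩
      have hw' : w + S j0 = sz S := by omega
      rw [← hw] at e3
      have hw2 : w ≤ 2 * S j0 := by omega
      have e4 : 23 * (r * w) ≤ 24 * (Y x * sz S) + 46 * sz S := by
        have := Nat.mul_le_mul_right (sz S) e1
        nlinarith
      -- 24 q σ = 24 r σ - 24 Y σ ≤ 24 r σ - 23 r w + 46 σ = rσ + 23 r S0 + 46σ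
      have e5 : 24 * (q * sz S) + 23 * (r * w) ≤ 24 * (r * sz S) + 46 * sz S := by
        have : (q + Y x) * sz S = r * sz S := by rw [hq']
        nlinarith
      have e6 : 24 * (q * sz S) ≤ r * w + 24 * (r * S j0) + 46 * sz S := by
        have : r * sz S = r * w + r * S j0 := by rw [← hw']; ring
        omega
      have e7 : 12 * (r * w) ≤ 22 * (sz S * S j0) := by
        calc 12 * (r * w) = (12 * r) * w := by ring
          _ ≤ (11 * sz S) * (2 * S j0) := Nat.mul_le_mul hr2 hw2
          _ = 22 * (sz S * S j0) := by ring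
      have e8 : 288 * sz S ≤ sz S * S j0 := by
        rw [mul_comm]; exact Nat.mul_le_mul_left _ hbig
      have e9 : (12 * r + sz S) * S j0 = 12 * (r * S j0) + sz S * S j0 := by ring
      rw [e9]
      omega
    have φmem : ∀ x ∈ box S r, φ x ∈ box u r := by
      intro x hx
      obtain ⟨hx1, hx2⟩ := mem_box.1 hx
      rw [mem_box]
      constructor
      · intro j
        by_cases hj : j = j0
        · subst hj
          simp only [hφ, if_true]
          exact h _ _ (Ylo x hx)
        · simp only [hφ, if_neg hj]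
          apply h
          have e1 := shf_up (z j) (x j)
          have e2 := z1 j
          have e3 : x j ≤ S j := hx1 j
          have e4 : 24 * shf (z j) (x j) * sz S ≤ (24 * z j + S j) * sz S :=
            Nat.mul_le_mul_right _ (le_trans e1 (by omega))
          nlinarith
      · have h1 := hsz (φ x)
        unfold sz
        rw [h1]
        have h2 : ∑ j ∈ univ.erase j0, φ x j = Y x := by
          apply Finset.sum_congr rfl
          intro j hj
          simp only [hφ, if_neg (Finset.ne_of_mem_erase hj)]
        rw [h2]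
        simp only [hφ, if_true]
        have := Yup x hx
        omega
    -- injection
    have hinj : Set.InjOn (fun x : J → ℕ => (φ x, fun j : J => (⟨x j % 48, Nat.mod_lt _ (by norm_num)⟩ : Fin 48)))
        (box S r : Set (J → ℕ)) := by
      intro x hx x' hx' heq
      simp only [Prod.mk.injEq] at heq
      obtain ⟨h1, h2⟩ := heq
      obtain ⟨hx1, hx2⟩ := mem_box.1 (Finset.mem_coe.1 hx)
      obtain ⟨hx1', hx2'⟩ := mem_box.1 (Finset.mem_coe.1 hx')
      have h3 : ∀ j, j ≠ j0 → x j = x' j := by
        intro j hj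
        have a1 := congrFun h1 j
        simp only [hφ, if_neg hj] at a1
        have a2 := congrFun h2 j
        simp only [Fin.mk.injEq] at a2
        exact shf_inj a1 a2
      have h4 : x j0 = x' j0 := by
        have b1 := hsz x
        have b2 := hsz x'
        have b3 : ∑ j ∈ univ.erase j0, x j = ∑ j ∈ univ.erase j0, x' j :=
          Finset.sum_congr rfl (fun j hj => h3 j (Finset.ne_of_mem_erase hj))
        unfold sz at hx2 hx2'
        omega
      funext j
      by_cases hj : j = j0
      · rw [hj]; exact h4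
      · exact h3 j hj
    have hle : (box S r).card ≤ ((box u r) ×ˢ (univ : Finset (J → Fin 48))).card := by
      apply Finset.card_le_card_of_injOn _ _ hinj
      intro x hx
      rw [Finset.mem_coe, Finset.mem_product]
      exact ⟨φmem x (Finset.mem_coe.1 hx), mem_univ _⟩
    rw [Finset.card_product, Finset.card_univ, Fintype.card_fun, Fintype.card_fin] at hle
    have h48 : 48 ^ Fintype.card J ≤ 48 ^ 3 := Nat.pow_le_pow_right (by norm_num) hJ
    calc (box S r).card ≤ (box u r).card * 48 ^ Fintype.card J := hle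
      _ ≤ (box u r).card * 10 ^ 8 := Nat.mul_le_mul_left _ (le_trans h48 (by norm_num))
      _ = _ := by ring
  · -- small case
    push Not at hbig
    have h1 : 1 ≤ (box u r).card := Finset.card_pos.2 (box_nonempty hz)
    have h2 : (box S r).card ≤ (univ : Finset (J → Fin 288)).card := by
      apply Finset.card_le_card_of_injOn
        (fun x : J → ℕ => fun j : J => (⟨x j % 288, Nat.mod_lt _ (by norm_num)⟩ : Fin 288))
      · intro x _; exact Finset.mem_coe.2 (mem_univ _)
      · intro x hx x' hx' heq
        obtain ⟨hx1, hx2⟩ := mem_box.1 (Finset.mem_coe.1 hx)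
        obtain ⟨hx1', hx2'⟩ := mem_box.1 (Finset.mem_coe.1 hx')
        funext j
        have a := congrFun heq j
        simp only [Fin.mk.injEq] at a
        have b1 : x j ≤ S j := hx1 j
        have b2 : x' j ≤ S j := hx1' j
        have b3 := hj0' j
        rw [Nat.mod_eq_of_lt (by omega), Nat.mod_eq_of_lt (by omega)] at a
        exact a
    rw [Finset.card_univ, Fintype.card_fun, Fintype.card_fin] at h2
    have h288 : 288 ^ Fintype.card J ≤ 288 ^ 3 := Nat.pow_le_pow_right (by norm_num) hJ
    calc (box S r).card ≤ 288 ^ Fintype.card J := h2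
      _ ≤ 10 ^ 8 * 1 := le_trans h288 (by norm_num)
      _ ≤ 10 ^ 8 * (box u r).card := Nat.mul_le_mul_left _ h1

end CT
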