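import Vale.Agent.CT.GaTab3
import Vale.Agent.CT.GB25

/-! # GA: at most three rows and columns, two-row blocks, absolute constant -/

namespace CT

open Finset
open scoped Classical

variable {J : Type} [Fintype J] [DecidableEq J]
variable {I : Type} [Fintype I] [DecidableEq I]

theorem ga (hI : Fintype.card I ≤ 3) (hJ : Fintype.card J ≤ 3) (r : I → ℕ) (c : J → ℕ)
    (hrc : ∑ i, r i = sz c) (f : (I → J → ℕ) → ℝ) :
    ∑ T ∈ TT r c, (f T - (∑ T' ∈ TT r c, f T') / ((TT r c).card : ℝ)) ^ 2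
      ≤ 10 ^ 11 * ∑ i : I, ∑ j : I, VV r c (({i, j} : Finset I) ×ˢ (univ : Finset J)) f :=
  ga_of_core hI (fun c r1 r2 r3 h h12 h23 U W => core25 hJ c r1 r2 r3 h h12 h23 U W) r c hrc f

end CT
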