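import Vale.Agent.CT.GB25

/-! # Tables with at most three rows and at most three columns: two-row blocks -/

namespace CT

open Finset
open scoped Classical

variable {J : Type} [Fintype J] [DecidableEq J]
variable {I : Type} [Fintype I] [DecidableEq I]

/-- table from the two smaller rows -/
def mk25 (c : J → ℕ) (i2 i3 : I) (x y : J → ℕ) : I → J → ℕ :=
  fun i => if i = i3 then x else if i = i2 then y else c - x - y

theorem s3_25 {M : Type} [AddCommMonoid M] {i1 i2 i3 : I} (h12 : i1 ≠ i2) (h13 : i1 ≠ i3)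
    (h23 : i2 ≠ i3) (hu : ∀ i, i = i1 ∨ i = i2 ∨ i = i3) (F : I → M) :
    ∑ i, F i = F i1 + (F i2 + F i3) := by
  have : (univ : Finset I) = {i1, i2, i3} := by
    ext i
    simp only [mem_univ, mem_insert, mem_singleton, true_iff]
    exact hu i
  rw [this, Finset.sum_insert (by simp [h12, h13]), Finset.sum_insert (by simp [h23]),
    Finset.sum_singleton]

theorem sum_TT25 (r : I → ℕ) (c : J → ℕ) {i1 i2 i3 : I} (h12 : i1 ≠ i2) (h13 : i1 ≠ i3)
    (h23 : i2 ≠ i3) (hu : ∀ i, i = i1 ∨ i = i2 ∨ i = i3) (hrc : sz c = r i1 + r i2 + r i3)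
    (g : (J → ℕ) → (J → ℕ) → ℝ) :
    ∑ T ∈ TT r c, g (T i3) (T i2)
      = ∑ x ∈ box c (r i3), ∑ y ∈ box (c - x) (r i2), g x y := by
  rw [Finset.sum_sigma']
  refine Finset.sum_nbij' (fun T => (⟨T i3, T i2⟩ : Σ _ : J → ℕ, J → ℕ))
    (fun p => mk25 c i2 i3 p.1 p.2) ?_ ?_ ?_ ?_ ?_
  · intro T hT
    rw [fl_mem_TT, s3_25 h12 h13 h23 hu] at hT
    have h0 : ∀ j, T i1 j + (T i2 j + T i3 j) = c j := fun j => congrFun hT.2 j
    simp only [mem_sigma, mem_box]
    refine ⟨⟨fun j => ?_, hT.1 i3⟩, fun j => ?_, hT.1 i2⟩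
    · have := h0 j
      show T i3 j ≤ c j
      omega
    · have := h0 j
      show T i2 j ≤ c j - T i3 j
      omega
  · rintro ⟨x, y⟩ hp
    simp only [mem_sigma, mem_box] at hp
    obtain ⟨⟨hx1, hx2⟩, hy1, hy2⟩ := hp
    rw [fl_mem_TT, s3_25 h12 h13 h23 hu]
    have e1 := fl_sz_sub hx1
    have e2 := fl_sz_sub hy1
    constructor
    · intro i
      rcases hu i with h | h | h
      · subst h
        simp only [mk25, h12, h13, if_false]
        omega
      · subst h
        simp only [mk25, h23, if_false, if_true]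
        exact hy2
      · subst h
        simp only [mk25, if_true]
        exact hx2
    · funext j
      simp only [mk25, h12, h13, h23, if_false, if_true, Pi.add_apply]
      have a1 : x j ≤ c j := hx1 j
      have a2 : y j ≤ c j - x j := hy1 j
      show (c j - x j - y j) + (y j + x j) = c j
      omega
  · intro T hT
    rw [fl_mem_TT, s3_25 h12 h13 h23 hu] at hT
    have h0 : ∀ j, T i1 j + (T i2 j + T i3 j) = c j := fun j => congrFun hT.2 j
    funext i
    rcases hu i with h | h | h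
    · subst h
      simp only [mk25, h12, h13, if_false]
      funext j
      show c j - T i3 j - T i2 j = T i j
      have := h0 j
      omega
    · subst h
      simp only [mk25, h23, if_false, if_true]
    · subst h
      simp only [mk25, if_true]
  · rintro ⟨x, y⟩ _
    simp only [mk25, h23, if_false, if_true]
  · intro T _
    rfl

theorem ce25 (r : I → ℕ) (c : J → ℕ) {i1 i2 i3 : I} (h13 : i1 ≠ i3)
    (h23 : i2 ≠ i3) (hu : ∀ i, i = i1 ∨ i = i2 ∨ i = i3) (f : (I → J → ℕ) → ℝ) :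
    ∃ U : (J → ℕ) → ℝ, ∀ T, CE r c (({i1, i2} : Finset I) ×ˢ (univ : Finset J)) f T = U (T i3) := by
  refine ⟨fun x => (∑ T' ∈ (TT r c).filter (fun T' => T' i3 = x), f T')
    / (((TT r c).filter (fun T' => T' i3 = x)).card : ℝ), fun T => ?_⟩
  have : fib r c (({i1, i2} : Finset I) ×ˢ (univ : Finset J)) T
      = (TT r c).filter (fun T' => T' i3 = T i3) := by
    rw [fib]
    refine Finset.filter_congr fun T' _ => ?_
    constructor
    · intro h
      funext j
      refine h i3 j ?_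
      simp [h13.symm, h23.symm]
    · intro h i j hij
      have hi : i = i3 := by
        rcases hu i with h' | h' | h'
        · exact absurd (by simp [h']) hij
        · exact absurd (by simp [h']) hij
        · exact h'
      rw [hi, h]
  rw [CE, this]

theorem var25 {α : Type} (A : Finset α) (f : α → ℝ) (m : ℝ) :
    ∑ x ∈ A, (f x - (∑ x' ∈ A, f x') / (A.card : ℝ)) ^ 2 ≤ ∑ x ∈ A, (f x - m) ^ 2 := by
  rcases A.eq_empty_or_nonempty with h | h
  · subst h; simp
  · have hA : 0 < (A.card : ℝ) := by exact_mod_cast h.card_pos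
    set a := (∑ x ∈ A, f x) / (A.card : ℝ) with ha
    have h1 : ∑ x ∈ A, (f x - a) = 0 := by
      rw [Finset.sum_sub_distrib, Finset.sum_const, nsmul_eq_mul, ha]
      field_simp
      ring
    have h2 : ∑ x ∈ A, (f x - m) ^ 2 = ∑ x ∈ A, (f x - a) ^ 2 + (A.card : ℝ) * (a - m) ^ 2 := by
      have : ∀ x ∈ A, (f x - m) ^ 2
          = (f x - a) ^ 2 + (2 * (a - m) * (f x - a) + (a - m) ^ 2) := by
        intro x _; ring
      rw [Finset.sum_congr rfl this, Finset.sum_add_distrib, Finset.sum_add_distrib,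
        ← Finset.mul_sum, h1, Finset.sum_const, nsmul_eq_mul]
      ring
    rw [h2]
    have : 0 ≤ (A.card : ℝ) * (a - m) ^ 2 := by positivity
    linarith

theorem vnn25 (r : I → ℕ) (c : J → ℕ) (B : Finset (I × J)) (f : (I → J → ℕ) → ℝ) :
    0 ≤ VV r c B f := Finset.sum_nonneg fun _ _ => sq_nonneg _

theorem ga3_25 (hJ : Fintype.card J ≤ 3) (r : I → ℕ) (c : J → ℕ) {i1 i2 i3 : I} (h12 : i1 ≠ i2)
    (h13 : i1 ≠ i3) (h23 : i2 ≠ i3) (hu : ∀ i, i = i1 ∨ i = i2 ∨ i = i3)
    (hrc : ∑ i, r i = sz c) (g12 : r i2 ≤ r i1) (g23 : r i3 ≤ r i2) (f : (I → J → ℕ) → ℝ) :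
    ∑ T ∈ TT r c, (f T - (∑ T' ∈ TT r c, f T') / ((TT r c).card : ℝ)) ^ 2
      ≤ 10 ^ 11 * ∑ i : I, ∑ j : I,
        VV r c (({i, j} : Finset I) ×ˢ (univ : Finset J)) f := by
  rw [s3_25 h12 h13 h23 hu] at hrc
  have hrc' : sz c = r i1 + r i2 + r i3 := by omega
  obtain ⟨U, hU⟩ := ce25 r c h13 h23 hu f
  obtain ⟨W, hW⟩ := ce25 r c h12 h23.symm
    (fun i => by rcases hu i with h | h | h <;> simp [h]) f
  obtain ⟨m, hm⟩ := core25 hJ c (r i1) (r i2) (r i3) hrc' g12 g23 U W
  set V12 := VV r c (({i1, i2} : Finset I) ×ˢ (univ : Finset J)) f with hV12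
  set V13 := VV r c (({i1, i3} : Finset I) ×ˢ (univ : Finset J)) f with hV13
  have e12 : V12 = ∑ T ∈ TT r c, (f T - U (T i3)) ^ 2 := by
    rw [hV12, VV]
    exact Finset.sum_congr rfl fun T _ => by rw [hU]
  have e13 : V13 = ∑ T ∈ TT r c, (f T - W (T i2)) ^ 2 := by
    rw [hV13, VV]
    exact Finset.sum_congr rfl fun T _ => by rw [hW]
  rw [← sum_TT25 r c h12 h13 h23 hu hrc' (fun x _ => (U x - m) ^ 2),
    ← sum_TT25 r c h12 h13 h23 hu hrc' (fun x y => (U x - W y) ^ 2)] at hm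
  have k1 : ∑ T ∈ TT r c, (U (T i3) - W (T i2)) ^ 2 ≤ 2 * V12 + 2 * V13 := by
    rw [e12, e13, Finset.mul_sum, Finset.mul_sum, ← Finset.sum_add_distrib]
    refine Finset.sum_le_sum fun T _ => ?_
    nlinarith [sq_nonneg ((f T - U (T i3)) + (f T - W (T i2)))]
  have k2 : ∑ T ∈ TT r c, (f T - m) ^ 2
      ≤ 2 * V12 + 2 * ∑ T ∈ TT r c, (U (T i3) - m) ^ 2 := by
    rw [e12, Finset.mul_sum, Finset.mul_sum, ← Finset.sum_add_distrib]
    refine Finset.sum_le_sum fun T _ => ?_
    nlinarith [sq_nonneg ((f T - U (T i3)) - (U (T i3) - m))]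
  have k3 := var25 (TT r c) f m
  have n12 : 0 ≤ V12 := vnn25 _ _ _ _
  have n13 : 0 ≤ V13 := vnn25 _ _ _ _
  have k4 : V12 + V13 ≤ ∑ i : I, ∑ j : I,
        VV r c (({i, j} : Finset I) ×ˢ (univ : Finset J)) f := by
    have a1 : ∑ j : I, VV r c (({i1, j} : Finset I) ×ˢ (univ : Finset J)) f
        ≤ ∑ i : I, ∑ j : I, VV r c (({i, j} : Finset I) ×ˢ (univ : Finset J)) f :=
      Finset.single_le_sum (f := fun i => ∑ j : I,
        VV r c (({i, j} : Finset I) ×ˢ (univ : Finset J)) f)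
        (fun i _ => Finset.sum_nonneg fun j _ => vnn25 _ _ _ _) (mem_univ i1)
    have a2 : ∑ j : I, VV r c (({i1, j} : Finset I) ×ˢ (univ : Finset J)) f
        = VV r c (({i1, i1} : Finset I) ×ˢ (univ : Finset J)) f + (V12 + V13) := by
      rw [s3_25 h12 h13 h23 hu]
    have a3 : 0 ≤ VV r c (({i1, i1} : Finset I) ×ˢ (univ : Finset J)) f := vnn25 _ _ _ _
    linarith
  calc _ ≤ ∑ T ∈ TT r c, (f T - m) ^ 2 := k3
    _ ≤ 2 * V12 + 2 * (10 ^ 10 * (2 * V12 + 2 * V13)) := by
        refine k2.trans ?_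
        have := hm.trans (mul_le_mul_of_nonneg_left k1 (by norm_num : (0 : ℝ) ≤ 10 ^ 10))
        linarith
    _ ≤ 10 ^ 11 * (V12 + V13) := by nlinarith
    _ ≤ _ := mul_le_mul_of_nonneg_left k4 (by norm_num)

theorem whole25 (r : I → ℕ) (c : J → ℕ) {a b : I} (hab : (univ : Finset I) = {a, b})
    (f : (I → J → ℕ) → ℝ) :
    ∑ T ∈ TT r c, (f T - (∑ T' ∈ TT r c, f T') / ((TT r c).card : ℝ)) ^ 2
      ≤ 10 ^ 11 * ∑ i : I, ∑ j : I,
        VV r c (({i, j} : Finset I) ×ˢ (univ : Finset J)) f := by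
  have h0 : ∑ T ∈ TT r c, (f T - (∑ T' ∈ TT r c, f T') / ((TT r c).card : ℝ)) ^ 2
      = VV r c (({a, b} : Finset I) ×ˢ (univ : Finset J)) f := by
    rw [VV]
    refine Finset.sum_congr rfl fun T _ => ?_
    have : fib r c (({a, b} : Finset I) ×ˢ (univ : Finset J)) T = TT r c := by
      rw [fib, Finset.filter_true_of_mem]
      intro T' _ i j hij
      refine absurd ?_ hij
      rw [← hab, Finset.mem_product]
      exact ⟨mem_univ _, mem_univ _⟩
    rw [CE, this]
  rw [h0]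
  have a1 : ∑ j : I, VV r c (({a, j} : Finset I) ×ˢ (univ : Finset J)) f
      ≤ ∑ i : I, ∑ j : I, VV r c (({i, j} : Finset I) ×ˢ (univ : Finset J)) f :=
    Finset.single_le_sum (f := fun i => ∑ j : I,
      VV r c (({i, j} : Finset I) ×ˢ (univ : Finset J)) f)
      (fun i _ => Finset.sum_nonneg fun j _ => vnn25 _ _ _ _) (mem_univ a)
  have a2 : VV r c (({a, b} : Finset I) ×ˢ (univ : Finset J)) f
      ≤ ∑ j : I, VV r c (({a, j} : Finset I) ×ˢ (univ : Finset J)) f :=
    Finset.single_le_sum (f := fun j => VV r c (({a, j} : Finset I) ×ˢ (univ : Finset J)) f)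
      (fun j _ => vnn25 _ _ _ _) (mem_univ b)
  have a3 : 0 ≤ VV r c (({a, b} : Finset I) ×ˢ (univ : Finset J)) f := vnn25 _ _ _ _
  linarith

theorem ga (hI : Fintype.card I ≤ 3) (hJ : Fintype.card J ≤ 3) (r : I → ℕ) (c : J → ℕ)
    (hrc : ∑ i, r i = sz c) (f : (I → J → ℕ) → ℝ) :
    ∑ T ∈ TT r c, (f T - (∑ T' ∈ TT r c, f T') / ((TT r c).card : ℝ)) ^ 2
      ≤ 10 ^ 11 * ∑ i : I, ∑ j : I,
        VV r c (({i, j} : Finset I) ×ˢ (univ : Finset J)) f := by
  have hc : Fintype.card I = 0 ∨ Fintype.card I = 1 ∨ Fintype.card I = 2 ∨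
    Fintype.card I = 3 := by omega
  rcases hc with h | h | h | h
  · have : IsEmpty I := Fintype.card_eq_zero_iff.1 h
    have h0 : ∑ T ∈ TT r c, (f T - (∑ T' ∈ TT r c, f T') / ((TT r c).card : ℝ)) ^ 2 = 0 := by
      refine Finset.sum_eq_zero fun T hT => ?_
      have h1 : TT r c = {T} := by
        rw [Finset.eq_singleton_iff_unique_mem]
        exact ⟨hT, fun T' _ => Subsingleton.elim _ _⟩
      rw [h1]
      simp
    rw [h0]
    simp
  · rw [← Finset.card_univ, Finset.card_eq_one] at h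
    obtain ⟨a, ha⟩ := h
    exact whole25 r c (a := a) (b := a) (by rw [ha]; simp) f
  · rw [← Finset.card_univ, Finset.card_eq_two] at h
    obtain ⟨a, b, _, ha⟩ := h
    exact whole25 r c ha f
  · rw [← Finset.card_univ, Finset.card_eq_three] at h
    obtain ⟨x, y, z, hxy, hxz, hyz, hu⟩ := h
    have hall : ∀ i, i = x ∨ i = y ∨ i = z := by
      intro i
      have := mem_univ i
      rw [hu] at this
      simpa using this
    rcases le_total (r x) (r y) with p1 | p1 <;> rcases le_total (r y) (r z) with p2 | p2 <;>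
      rcases le_total (r x) (r z) with p3 | p3
    · exact ga3_25 hJ r c (i1 := z) (i2 := y) (i3 := x) hyz.symm hxz.symm hxy.symm
        (fun i => by rcases hall i with h | h | h <;> simp [h]) hrc p2 p1 f
    · exact ga3_25 hJ r c (i1 := z) (i2 := y) (i3 := x) hyz.symm hxz.symm hxy.symm
        (fun i => by rcases hall i with h | h | h <;> simp [h]) hrc p2 p1 f
    · exact ga3_25 hJ r c (i1 := y) (i2 := z) (i3 := x) hyz hxy.symm hxz.symm
        (fun i => by rcases hall i with h | h | h <;> simp [h]) hrc p2 p3 f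
    · exact ga3_25 hJ r c (i1 := y) (i2 := x) (i3 := z) hxy.symm hyz hxz
        (fun i => by rcases hall i with h | h | h <;> simp [h]) hrc p1 p3 f
    · exact ga3_25 hJ r c (i1 := z) (i2 := x) (i3 := y) hxz.symm hyz.symm hxy
        (fun i => by rcases hall i with h | h | h <;> simp [h]) hrc p3 p1 f
    · exact ga3_25 hJ r c (i1 := x) (i2 := z) (i3 := y) hxz hxy hyz.symm
        (fun i => by rcases hall i with h | h | h <;> simp [h]) hrc p3 p2 f
    · exact ga3_25 hJ r c (i1 := x) (i2 := y) (i3 := z) hxy hxz hyz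
        (fun i => by rcases hall i with h | h | h <;> simp [h]) hrc p1 p2 f
    · exact ga3_25 hJ r c (i1 := x) (i2 := y) (i3 := z) hxy hxz hyz
        (fun i => by rcases hall i with h | h | h <;> simp [h]) hrc p1 p2 f

end CT
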