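import Vale.Agent.CT.Lor
import Vale.Agent.CT.Sp3A

/-! # Trivial scalar Poincare inequality on three columns (piece SP3)

`CT.sp3` is proved in `Sp3A.lean`. -/
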